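import Vale.Agent.P011.H500.Rl.Loc
import Vale.Agent.P011.H327.Star.Fin

/-!
The derivations attached to the pure octonions, at an embedding.
-/

namespace Vale.Agent.P011.H706.Rl

open Vale.Agent.P011.MPQ Vale.Agent.P011.D4 Vale.Agent.P011.D4.Oct Vale.Agent.P011.E6
open Vale.Agent.P011.H261.Rl Vale.Agent.P011.H500.Rl
open Vale.Agent.P011.D4.H24 (ob oup_ob)

section six

variable {k E : Type} [Field k] [Field E] [Algebra k E] [NeZero (2 : E)] {a b c a' b' c' : kˣ}
  {i j l : Oct a b c} (ht : Trip a' b' c' i j l) (φ : E →+* ℂ)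

theorem tripO_gj : tripO E ht gj = oup E j := by
  rw [tripO_apply]
  simp [emb, qemb, gj]

theorem evo_gj {F : Type} [Field F] (φ : F →+* ℂ) {a b c : Fˣ} : evo φ (gj : Oct a b c) = gj := by
  ext <;> simp [evo, gj]

/-- The derivations attached to the second member of a triple. -/
theorem DT_six : DT ht φ (Matrix.single 1 2 1) =
      LinearMap.toContinuousLinearMap (H261.Rl.P1 (evo φ (oup E j))) ∧
    DT ht φ (Matrix.single 2 0 1) =
      LinearMap.toContinuousLinearMap (H261.Rl.P2 (evo φ (oup E j))) ∧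
    DT ht φ (Matrix.single 0 1 1) =
      LinearMap.toContinuousLinearMap (H261.Rl.P3 (evo φ (oup E j))) ∧
    DT ht φ (Matrix.single 2 1 1) =
      LinearMap.toContinuousLinearMap (H261.Rl.M1 (evo φ (oup E j))) ∧
    DT ht φ (Matrix.single 0 2 1) =
      LinearMap.toContinuousLinearMap (H261.Rl.M2 (evo φ (oup E j))) ∧
    DT ht φ (Matrix.single 1 0 1) =
      LinearMap.toContinuousLinearMap (H261.Rl.M3 (evo φ (oup E j))) := by
  have hf := tripO_mul (K := E) ht
  have hgj := tripO_gj (E := E) ht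
  refine ⟨?_, ?_, ?_, ?_, ?_, ?_⟩
  · apply ext_R φ
    intro x
    obtain ⟨u, rfl⟩ := (tripA E ht).surjective x
    rw [DT_ev, DD_P1, ← evo_gj φ, ev_P1, Tf_ev, LinearMap.coe_toContinuousLinearMap', ev_P1,
      ← hgj, tripA, mapE_P1 hf]
  · apply ext_R φ
    intro x
    obtain ⟨u, rfl⟩ := (tripA E ht).surjective x
    rw [DT_ev, DD_P2, ← evo_gj φ, ev_P2, Tf_ev, LinearMap.coe_toContinuousLinearMap', ev_P2,
      ← hgj, tripA, mapE_P2 hf]
  · apply ext_R φ
    intro x
    obtain ⟨u, rfl⟩ := (tripA E ht).surjective x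
    rw [DT_ev, DD_P3, ← evo_gj φ, ev_P3, Tf_ev, LinearMap.coe_toContinuousLinearMap', ev_P3,
      ← hgj, tripA, mapE_P3 hf]
  · apply ext_R φ
    intro x
    obtain ⟨u, rfl⟩ := (tripA E ht).surjective x
    rw [DT_ev, DD_M1, ← evo_gj φ, ev_M1, Tf_ev, LinearMap.coe_toContinuousLinearMap', ev_M1,
      ← hgj, tripA, mapE_M1 hf]
  · apply ext_R φ
    intro x
    obtain ⟨u, rfl⟩ := (tripA E ht).surjective x
    rw [DT_ev, DD_M2, ← evo_gj φ, ev_M2, Tf_ev, LinearMap.coe_toContinuousLinearMap', ev_M2,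
      ← hgj, tripA, mapE_M2 hf]
  · apply ext_R φ
    intro x
    obtain ⟨u, rfl⟩ := (tripA E ht).surjective x
    rw [DT_ev, DD_M3, ← evo_gj φ, ev_M3, Tf_ev, LinearMap.coe_toContinuousLinearMap', ev_M3,
      ← hgj, tripA, mapE_M3 hf]

end six

theorem evo_ob {F : Type} [Field F] (φ : F →+* ℂ) {a b c : Fˣ} (m : Fin 8) :
    evo φ (ob m : Oct a b c) = ob m := by
  fin_cases m <;> · ext <;> simp [ob, evo]

/-- A family of operators linear in the pure octonion. -/
theorem mem_of_ob {a b c : ℂˣ} (V : Submodule ℂ (R a b c))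
    (P : Oct a b c → Alb a b c →ₗ[ℂ] Alb a b c)
    (hP : ∀ (s t : ℂ) u v, P (s • u + t • v) = s • P u + t • P v)
    (h : ∀ m : Fin 8, m ≠ 0 → LinearMap.toContinuousLinearMap (P (ob m)) ∈ V) {q : Oct a b c}
    (hq : bil q 1 = 0) : LinearMap.toContinuousLinearMap (P q) ∈ V := by
  have h0 : D4.H24.oc q 0 = 0 := by
    rw [bil_eq] at hq
    have h1 : 2 * q.fst.re = 0 := by simpa using hq
    exact (mul_eq_zero.1 h1).resolve_left two_ne_zero
  have hz : P 0 = 0 := by
    have := hP 0 0 0 0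
    simpa using this
  have ha : ∀ u v, P (u + v) = P u + P v := by
    intro u v
    have := hP 1 1 u v
    simpa using this
  have hs : ∀ (t : ℂ) u, P (t • u) = t • P u := by
    intro t u
    have := hP t 0 u 0
    simpa using this
  have hsum : ∀ s : Finset (Fin 8), P (∑ m ∈ s, D4.H24.oc q m • (ob m : Oct a b c)) =
      ∑ m ∈ s, D4.H24.oc q m • P (ob m) := by
    intro s
    induction s using Finset.induction_on with
    | empty => simp [hz]
    | insert m s hm ih => rw [Finset.sum_insert hm, Finset.sum_insert hm, ha, ih, hs]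
  have h2 := hsum Finset.univ
  rw [D4.H24.sum_oc] at h2
  rw [h2, map_sum]
  refine V.sum_mem fun m _ => ?_
  by_cases hm : m = 0
  · rw [hm, h0, zero_smul, map_zero]
    exact V.zero_mem
  · rw [map_smul]
    exact V.smul_mem _ (h m hm)

/-- The hypothesis on the pure octonions, from the derivations attached to the triples. -/
theorem hq_of_DT {k E : Type} [Field k] [Field E] [Algebra k E] [NeZero (2 : E)] {a b c : kˣ}
    (φ : E →+* ℂ) (G0 : Set (RE φ a b c))
    (h : ∀ (a' b' c' : kˣ) (i j l : Oct a b c) (ht : Trip a' b' c' i j l)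
      (M : Matrix (Fin 3) (Fin 3) ℂ), DT ht φ M ∈ Submodule.span ℂ G0)
    (q : Oct (uw φ (up E a)) (uw φ (up E b)) (uw φ (up E c))) (hq : bil q 1 = 0) :
    LinearMap.toContinuousLinearMap (H261.Rl.P1 q) ∈ Submodule.span ℂ G0 ∧
      LinearMap.toContinuousLinearMap (H261.Rl.P2 q) ∈ Submodule.span ℂ G0 ∧
      LinearMap.toContinuousLinearMap (H261.Rl.P3 q) ∈ Submodule.span ℂ G0 ∧
      LinearMap.toContinuousLinearMap (H261.Rl.M1 q) ∈ Submodule.span ℂ G0 ∧
      LinearMap.toContinuousLinearMap (H261.Rl.M2 q) ∈ Submodule.span ℂ G0 ∧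
      LinearMap.toContinuousLinearMap (H261.Rl.M3 q) ∈ Submodule.span ℂ G0 := by
  have key : ∀ m : Fin 8, m ≠ 0 →
      LinearMap.toContinuousLinearMap (H261.Rl.P1
        (ob m : Oct (uw φ (up E a)) (uw φ (up E b)) (uw φ (up E c)))) ∈ Submodule.span ℂ G0 ∧
      LinearMap.toContinuousLinearMap (H261.Rl.P2
        (ob m : Oct (uw φ (up E a)) (uw φ (up E b)) (uw φ (up E c)))) ∈ Submodule.span ℂ G0 ∧
      LinearMap.toContinuousLinearMap (H261.Rl.P3
        (ob m : Oct (uw φ (up E a)) (uw φ (up E b)) (uw φ (up E c)))) ∈ Submodule.span ℂ G0 ∧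
      LinearMap.toContinuousLinearMap (H261.Rl.M1
        (ob m : Oct (uw φ (up E a)) (uw φ (up E b)) (uw φ (up E c)))) ∈ Submodule.span ℂ G0 ∧
      LinearMap.toContinuousLinearMap (H261.Rl.M2
        (ob m : Oct (uw φ (up E a)) (uw φ (up E b)) (uw φ (up E c)))) ∈ Submodule.span ℂ G0 ∧
      LinearMap.toContinuousLinearMap (H261.Rl.M3
        (ob m : Oct (uw φ (up E a)) (uw φ (up E b)) (uw φ (up E c)))) ∈ Submodule.span ℂ G0 := by
    intro m hm
    obtain ⟨a', b', c', i, j, l, ht, rfl⟩ := exists_trip_ob (F := k) (a := a) (b := b) (c := c) m hm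
    obtain ⟨h1, h2, h3, h4, h5, h6⟩ := DT_six (E := E) ht φ
    rw [oup_ob, evo_ob] at h1 h2 h3 h4 h5 h6
    rw [← h1, ← h2, ← h3, ← h4, ← h5, ← h6]
    exact ⟨h _ _ _ _ _ _ ht _, h _ _ _ _ _ _ ht _, h _ _ _ _ _ _ ht _, h _ _ _ _ _ _ ht _,
      h _ _ _ _ _ _ ht _, h _ _ _ _ _ _ ht _⟩
  refine ⟨mem_of_ob _ H261.Rl.P1 (fun s t u v => ?_) (fun m hm => (key m hm).1) hq,
    mem_of_ob _ H261.Rl.P2 (fun s t u v => ?_) (fun m hm => (key m hm).2.1) hq,
    mem_of_ob _ H261.Rl.P3 (fun s t u v => ?_) (fun m hm => (key m hm).2.2.1) hq,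
    mem_of_ob _ H261.Rl.M1 (fun s t u v => ?_) (fun m hm => (key m hm).2.2.2.1) hq,
    mem_of_ob _ H261.Rl.M2 (fun s t u v => ?_) (fun m hm => (key m hm).2.2.2.2.1) hq,
    mem_of_ob _ H261.Rl.M3 (fun s t u v => ?_) (fun m hm => (key m hm).2.2.2.2.2) hq⟩
  · exact H327.Star.P1_lin s t u v
  · exact H327.Star.P2_lin s t u v
  · exact H327.Star.P3_lin s t u v
  · rw [H327.Star.M1_eq, H327.Star.M1_eq, H327.Star.M1_eq]
    exact H327.Star.M1_lin s t u v
  · rw [H327.Star.M2_eq, H327.Star.M2_eq, H327.Star.M2_eq]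
    exact H327.Star.M2_lin s t u v
  · rw [H327.Star.M3_eq, H327.Star.M3_eq, H327.Star.M3_eq]
    exact H327.Star.M3_lin s t u v

end Vale.Agent.P011.H706.Rl
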