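import Vale.Agent.P011.H261.Rl.Asm
import Mathlib.GroupTheory.Index

/-!
The Lie algebra of the closure of a subgroup of finite index.
-/

open NormedSpace Filter Topology

namespace Vale.Agent.P011.H706.Rl

open Vale.Agent.P011.H261.Rl Vale.Agent.P011.D4 Vale.Agent.P011.E6 Vale.Agent.P011.E6H

variable {k E : Type} [Field k] [Field E] [Algebra k E]
variable {ρ σ : E ≃ₐ[k] E} {lam : Eˣ} {g : Fin 3 → Eˣ} {a b c : kˣ}

theorem lc_pow (φ : E →+* ℂ) (f : G3 ρ σ lam g a b c) (m : ℕ) :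
    lc φ (f ^ m).1 = lc φ f.1 ^ m := by
  induction m with
  | zero => rw [pow_zero, pow_zero]; exact lc_one φ
  | succ m ih => rw [pow_succ, pow_succ, lc_mul, ih]

/-- The powers of an element of the closure of the group belong to the closure of a subgroup of
finite index. -/
theorem pow_mem_Lcl {S : Type} (φ : S → E →+* ℂ) (N : Subgroup (G3 ρ σ lam g a b c))
    (hN : N.index ≠ 0) {m : ℕ} (hm : ∀ j, 0 < j → j ≤ N.index → j ∣ m) :
    ∀ x ∈ Lcl φ (⊤ : Subgroup (G3 ρ σ lam g a b c)), x ^ m ∈ Lcl φ N := by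
  intro x hx
  refine map_mem_closure (f := fun y : ∀ v : S, RE (φ v) a b c => y ^ m) (continuous_pow m)
    hx ?_
  rintro x ⟨n, -, h⟩
  refine ⟨n ^ m, N.pow_mem_of_index_ne_zero_of_dvd hN n hm, fun v => ?_⟩
  change x v ^ m = _
  rw [h, lc_pow]

theorem lieOf_pow {A : Type*} [NormedRing A] [NormedAlgebra ℝ A] [CompleteSpace A] {L L' : Set A}
    {m : ℕ} (hm : 0 < m) (h : ∀ x ∈ L, x ^ m ∈ L') : ∀ X ∈ lieOf L, X ∈ lieOf L' := by
  intro X hX t
  have key := h _ (hX ((m : ℝ)⁻¹ * t))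
  rwa [mul_smul, exp_inv_smul_pow _ hm] at key

/-- The closure of a subgroup of finite index has the Lie algebra of the closure of the group. -/
theorem lie_pow {S : Type} [Fintype S] [DecidableEq S] (φ : S → E →+* ℂ)
    (N : Subgroup (G3 ρ σ lam g a b c)) (hN : N.index ≠ 0) :
    ∀ X ∈ lieOf (Lcl φ (⊤ : Subgroup (G3 ρ σ lam g a b c))), X ∈ lieOf (Lcl φ N) :=
  lieOf_pow (Nat.factorial_pos _)
    (pow_mem_Lcl φ N hN (m := N.index.factorial) fun _ h0 h1 => Nat.dvd_factorial h0 h1)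

end Vale.Agent.P011.H706.Rl
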