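import Mathlib.NumberTheory.NumberField.InfinitePlace.Basic
import Mathlib.Topology.Algebra.Order.Archimedean

/-!
Weak approximation at the archimedean places, with a rate.
-/

open NumberField Filter Topology

namespace Vale.Agent.P011.H706.Rl

open scoped ComplexConjugate

section

variable {k : Type} [Field k]

/-- The image of an embedding is dense in the completion. -/
theorem exists_near_one [NumberField k] (ψ : k →+* ℂ) (z : ℂ)
    (hz : (∀ x : k, conj (ψ x) = ψ x) → conj z = z) {ε : ℝ} (hε : 0 < ε) :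
    ∃ y : k, ‖ψ y - z‖ < ε := by
  by_cases h : ∀ x : k, conj (ψ x) = ψ x
  · have h1 := Complex.conj_eq_iff_re.1 (hz h)
    obtain ⟨q, hq⟩ := (Rat.denseRange_cast (𝕜 := ℝ)).exists_dist_lt z.re hε
    refine ⟨(q : k), ?_⟩
    rw [map_ratCast, ← h1]
    have h2 : ((q : ℂ) - ((z.re : ℝ) : ℂ)) = (((q : ℝ) - z.re : ℝ) : ℂ) := by push_cast; rfl
    rw [h2, Complex.norm_real, ← dist_eq_norm, dist_comm]
    exact hq
  · push Not at h
    obtain ⟨x, hx⟩ := h
    have hi : (ψ x).im ≠ 0 := fun h0 => hx (Complex.conj_eq_iff_im.2 h0)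
    set s : ℝ := z.im / (ψ x).im with hs
    set r : ℝ := z.re - s * (ψ x).re with hr
    have hzz : z = (r : ℂ) + (s : ℂ) * ψ x := by
      apply Complex.ext
      · simp [hr]
      · simp only [Complex.add_im, Complex.ofReal_im, Complex.mul_im, Complex.ofReal_re, zero_mul,
          add_zero, zero_add, hs]
        field_simp
    have hpos : 0 < ε / (2 * (1 + ‖ψ x‖)) := by positivity
    obtain ⟨q, hq⟩ := (Rat.denseRange_cast (𝕜 := ℝ)).exists_dist_lt r (half_pos hε)
    obtain ⟨t, ht⟩ := (Rat.denseRange_cast (𝕜 := ℝ)).exists_dist_lt s hpos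
    refine ⟨(q : k) + (t : k) * x, ?_⟩
    have h2 : ψ ((q : k) + (t : k) * x) - z =
        (((q : ℝ) - r : ℝ) : ℂ) + (((t : ℝ) - s : ℝ) : ℂ) * ψ x := by
      rw [map_add, map_mul, map_ratCast, map_ratCast, hzz]
      push_cast
      ring
    rw [h2]
    have h3 : ‖(((q : ℝ) - r : ℝ) : ℂ)‖ < ε / 2 := by
      rw [Complex.norm_real, ← dist_eq_norm, dist_comm]
      exact hq
    have h4 : ‖(((t : ℝ) - s : ℝ) : ℂ) * ψ x‖ ≤ ε / 2 := by
      rw [norm_mul, Complex.norm_real, ← dist_eq_norm, dist_comm]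
      calc dist s t * ‖ψ x‖ ≤ ε / (2 * (1 + ‖ψ x‖)) * (1 + ‖ψ x‖) := by
            have := norm_nonneg (ψ x)
            exact mul_le_mul ht.le (by linarith) (norm_nonneg _) hpos.le
        _ = ε / 2 := by
            have : 1 + ‖ψ x‖ ≠ 0 := by positivity
            field_simp
    calc ‖(((q : ℝ) - r : ℝ) : ℂ) + (((t : ℝ) - s : ℝ) : ℂ) * ψ x‖ ≤ _ := norm_add_le _ _
      _ < ε / 2 + ε / 2 := by linarith
      _ = ε := by ring

/-- Weak approximation. -/
theorem exists_near [NumberField k] {S : Type} (ψ : S → k →+* ℂ)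
    (hψ : ∀ v v', (∀ x : k, ‖ψ v x‖ = ‖ψ v' x‖) → v = v') (v : S) (z : ℂ)
    (hz : (∀ x : k, conj (ψ v x) = ψ v x) → conj z = z) {ε : ℝ} (hε : 0 < ε) :
    ∃ x : k, ‖ψ v x - z‖ < ε ∧ ∀ v', v' ≠ v → ‖ψ v' x‖ < ε := by
  classical
  obtain ⟨y, hy⟩ := exists_near_one (ψ v) z hz (half_pos hε)
  have hne : ∀ v', v' ≠ v → InfinitePlace.mk (ψ v') ≠ InfinitePlace.mk (ψ v) := by
    intro v' hv' h
    apply hv'
    apply hψ
    intro x
    have := congrArg (fun w : InfinitePlace k => w x) h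
    simpa [InfinitePlace.apply] using this
  obtain ⟨x, hx⟩ := (InfinitePlace.denseRange_algebraMap_pi k).exists_dist_lt
    (Pi.single (InfinitePlace.mk (ψ v)) (WithAbs.toAbs _ y)) (half_pos hε)
  rw [dist_comm, dist_pi_lt_iff (half_pos hε)] at hx
  refine ⟨x, ?_, ?_⟩
  · have h1 := hx (InfinitePlace.mk (ψ v))
    rw [Pi.single_eq_same, dist_eq_norm] at h1
    have h2 : ‖ψ v (x - y)‖ < ε / 2 := by
      rw [← InfinitePlace.apply]
      exact h1
    calc ‖ψ v x - z‖ = ‖ψ v (x - y) + (ψ v y - z)‖ := by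
          rw [map_sub]
          ring_nf
      _ ≤ _ := norm_add_le _ _
      _ < ε / 2 + ε / 2 := by linarith
      _ = ε := by ring
  · intro v' hv'
    have h1 := hx (InfinitePlace.mk (ψ v'))
    rw [Pi.single_eq_of_ne (hne v' hv'), dist_zero_right] at h1
    have h2 : ‖ψ v' x‖ < ε / 2 := by
      rw [← InfinitePlace.apply]
      exact h1
    linarith

end

/-- Weak approximation with a rate. -/
theorem exists_seq {k E : Type} [Field k] [NumberField k] [Field E] [Algebra k E] {S : Type}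
    [Finite S] (φ : S → E →+* ℂ)
    (hφ : ∀ v v', (∀ x : k, ‖φ v (algebraMap k E x)‖ = ‖φ v' (algebraMap k E x)‖) → v = v')
    (v : S) (z : ℂ)
    (hz : (∀ x : k, conj (φ v (algebraMap k E x)) = φ v (algebraMap k E x)) → conj z = z) :
    ∃ s : ℕ → k, Tendsto (fun n : ℕ => (n : ℂ) * φ v (algebraMap k E (s n))) atTop (𝓝 z) ∧
      ∀ v', v' ≠ v →
        Tendsto (fun n : ℕ => (n : ℂ) * φ v' (algebraMap k E (s n))) atTop (𝓝 0) := by
  have key : ∀ n : ℕ, ∃ x : k, ‖φ v (algebraMap k E x) - z‖ < 1 / ((n : ℝ) + 1) ∧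
      ∀ v', v' ≠ v → ‖φ v' (algebraMap k E x)‖ < 1 / ((n : ℝ) + 1) := fun n =>
    exists_near (fun v => (φ v).comp (algebraMap k E)) hφ v z hz (by positivity)
  choose x hx hx' using key
  have hcast : ∀ (w : S) (n : ℕ), 1 ≤ n →
      (n : ℂ) * φ w (algebraMap k E (x n / (n : k))) = φ w (algebraMap k E (x n)) := by
    intro w n hn
    have hn0 : (n : ℂ) ≠ 0 := by exact_mod_cast (by omega : n ≠ 0)
    rw [map_div₀, map_div₀, map_natCast, map_natCast]
    field_simp
  have hlim : Tendsto (fun n : ℕ => 1 / ((n : ℝ) + 1)) atTop (𝓝 0) :=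
    tendsto_one_div_add_atTop_nhds_zero_nat
  refine ⟨fun n => x n / (n : k), ?_, ?_⟩
  · refine Tendsto.congr' ?_ (?_ : Tendsto (fun n => φ v (algebraMap k E (x n))) atTop (𝓝 z))
    · filter_upwards [eventually_ge_atTop 1] with n hn
      exact (hcast v n hn).symm
    · rw [tendsto_iff_norm_sub_tendsto_zero]
      exact squeeze_zero (fun n => norm_nonneg _) (fun n => (hx n).le) hlim
  · intro v' hv'
    refine Tendsto.congr' ?_ (?_ : Tendsto (fun n => φ v' (algebraMap k E (x n))) atTop (𝓝 0))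
    · filter_upwards [eventually_ge_atTop 1] with n hn
      exact (hcast v' n hn).symm
    · rw [tendsto_zero_iff_norm_tendsto_zero]
      exact squeeze_zero (fun n => norm_nonneg _) (fun n => (hx' n v' hv').le) hlim

end Vale.Agent.P011.H706.Rl
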